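import Vale.Agent.P284.H553.R6.VS

/-!
# P284 (helper553), R6: good points of the form of a Bogomolov sheaf
-/

open scoped Manifold ContDiff Topology Matrix
open Filter Set Metric

noncomputable section

set_option linter.unusedSectionVars false

namespace Vale.Agent.P284.H553.R6

open Vale.Agent.P272.K Vale.Agent.P284.H248 Vale.Agent.P284.H221 Vale.Agent.P284.H998
  Vale.Agent.P284.H206 Vale.Agent.P284.H206.Bog Vale.Agent.P284.H573

section
variable {n p k : ℕ} {X : Type} [TopologicalSpace X] [ChartedSpace (Cm n) X]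
  [IsManifold 𝓘(ℂ, Cm n) ω X] {L : LineBundle n X}

/-- the ratios of the sections -/
def rat (s : Fin (p + 1) → Sec L k) (i : L.ι) (e : Chart n X) (z : Cm n) : Cm p :=
  fun a => (s a.succ).f i (e.symm z) / (s 0).f i (e.symm z)

/-- **the good points** -/
theorem good_of_dec [T2Space X] [CompactSpace X] (hZ : ZPStmt) {ι : Type} [Fintype ι]
    (pj : PJ n X ι) (φ : Mor L p) (hk : k ≠ 0) (s : Fin (p + 1) → Sec L k) {i : L.ι}
    {e : Chart n X} {x : X} (he : At e x) (hi : x ∈ L.U i) {U : Cm n → ℂ}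
    (hU : AnalyticAt ℂ U (e x)) (hU0 : U (e x) ≠ 0)
    (hbs : Function.Surjective (fderiv ℂ (rat s i e) (e x)))
    (hnf : ∀ᶠ z in 𝓝 (e x), ∀ ξ : Fin p → Cm n,
      φ.form i e z ξ = U z * (Matrix.of fun a j => fderiv ℂ (rat s i e) z (ξ j) a).det)
    (hs : (s 0).f i x ≠ 0) : GoodAt (id : X → X) p k (vS s φ) x := by
  set b : Cm n → Cm p := rat s i e with hb
  have hsa : ∀ j, AnalyticAt ℂ (fun z => (s j).f i (e.symm z)) (e x) := fun j =>
    ((s j).holo i e x he hi).analyticAt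
  have hs0 : (s 0).f i (e.symm (e x)) ≠ 0 := by rwa [he.left_inv]
  have hban : AnalyticAt ℂ b (e x) := analyticAt_pi_iff.2 fun a => (hsa a.succ).div (hsa 0) hs0
  set g : Cm n → ℂ := fun z => (s 0).f i (e.symm z) * U z ^ k with hg
  have hgan : AnalyticAt ℂ g (e x) := (hsa 0).mul (hU.pow k)
  have hg0 : g (e x) ≠ 0 := mul_ne_zero hs0 (pow_ne_zero k hU0)
  have hsurj : ∀ᶠ z in 𝓝 (e x), Function.Surjective (fderiv ℂ b z) :=
    Vale.Agent.P284.H998.eventually_surj hban.fderiv.continuousAt hbs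
  have hnear : ∀ᶠ z in 𝓝 (e x), z ∈ e.target ∧ At e (e.symm z) ∧ e.symm z ∈ L.U i := by
    have hc : Tendsto e.symm (𝓝 (e x)) (𝓝 x) := by
      have := (e.continuousAt_symm he.mem_target).tendsto
      rwa [he.left_inv] at this
    filter_upwards [he.nhds_target, hc.eventually ((L.isOpen i).mem_nhds hi)] with z hz hz2
    exact ⟨hz, At.of_target he.1 hz, hz2⟩
  have hker : ∀ᶠ z in 𝓝 (e x), ∀ v, fderiv ℂ b z v = 0 → fderiv ℂ g z v = 0 := by
    filter_upwards [hnear, hsurj, hnf.eventually_nhds, hban.eventually_analyticAt,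
      hU.eventually_analyticAt, hU.continuousAt.eventually_ne hU0,
      (hsa 0).continuousAt.eventually_ne hs0] with z h1 h2 h3 h4 h5 h6 h7 v hv
    have hz : e (e.symm z) = z := e.right_inv h1.1
    have h8 := claim hZ pj φ hk (s 0) h1.2.1 h1.2.2 (U := U) (b := b) (by rwa [hz]) (by rwa [hz])
      (by rwa [hz]) (by rwa [hz]) (by rwa [hz]) h7 (ξ := v) (by rwa [hz])
    rwa [hz] at h8
  obtain ⟨h, hhan, hh⟩ := factor hban hbs hgan hker
  have hh0 : h (b (e x)) ≠ 0 := by
    rw [← hh.self_of_nhds]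
    exact hg0
  refine ⟨e, b, fun β => vec' (h β • (Fin.cons 1 β : Fin (p + 1) → ℂ)), he, hban, hbs, ?_,
    immAt_cons hhan hh0, ?_⟩
  · refine vec'_an (AnalyticAt.smul hhan (analyticAt_pi_iff.2 fun j => ?_))
    refine Fin.cases ?_ (fun a => ?_) j
    · exact analyticAt_const
    · exact (ContinuousLinearMap.proj (R := ℂ) (φ := fun _ : Fin p => ℂ) a).analyticAt _
  · have h1 : ∀ᶠ y in 𝓝 x, At e y ∧ y ∈ L.U i ∧ (∀ ξ : Fin p → Cm n,
        φ.form i e (e y) ξ = U (e y) * (Matrix.of fun a j => fderiv ℂ b (e y) (ξ j) a).det) ∧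
        g (e y) = h (b (e y)) ∧ (s 0).f i (e.symm (e y)) ≠ 0 := by
      have hc : Tendsto e (𝓝 x) (𝓝 (e x)) := e.continuousAt he.2
      filter_upwards [e.open_source.mem_nhds he.2, (L.isOpen i).mem_nhds hi, hc.eventually hnf,
        hc.eventually hh, hc.eventually ((hsa 0).continuousAt.eventually_ne hs0)] with y a1 a2 a3 a4 a5
      exact ⟨⟨he.1, a1⟩, a2, a3, a4, a5⟩
    filter_upwards [h1] with y hy ξ
    obtain ⟨a1, a2, a3, a4, a5⟩ := hy
    rw [vS_eq s φ a1 a2 ξ]
    simp only [id_eq]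
    rw [← a4, ← vec'_smul]
    congr 1
    funext j
    have hly : e.symm (e y) = y := a1.left_inv
    rw [hly] at a5
    have hgy : g (e y) = (s 0).f i y * U (e y) ^ k := by rw [hg]; simp only [hly]
    simp only [Pi.smul_apply, smul_eq_mul]
    rw [a3, hgy]
    refine Fin.cases ?_ (fun a => ?_) j
    · rw [Fin.cons_zero]
      ring
    · rw [Fin.cons_succ]
      have h2 : b (e y) a = (s a.succ).f i y / (s 0).f i y := by
        rw [hb, rat, hly]
      rw [h2, mul_pow]
      field_simp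

end

end Vale.Agent.P284.H553.R6
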