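import Vale.Agent.P284.H553.R6.Fac
import Vale.Agent.P284.H206.Bog
import Vale.Agent.P284.H573.HForm

/-!
# P284 (helper553), R6: the vector valued form of a Bogomolov sheaf
-/

open scoped Manifold ContDiff Topology Matrix
open Filter Set Metric

noncomputable section

set_option linter.unusedSectionVars false

namespace Vale.Agent.P284.H553.R6

open Vale.Agent.P272.K Vale.Agent.P284.H248 Vale.Agent.P284.H221 Vale.Agent.P284.H998
  Vale.Agent.P284.H206 Vale.Agent.P284.H206.Bog Vale.Agent.P284.H573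

/-- an alternating form of degree `p` on `p` combinations of `p` vectors -/
theorem alt_comb {V : Type*} [AddCommGroup V] [Module ℂ V] {p : ℕ} (f : V [⋀^Fin p]→ₗ[ℂ] ℂ)
    (A : Matrix (Fin p) (Fin p) ℂ) (ξ : Fin p → V) :
    f (fun i => ∑ j, A i j • ξ j) = A.det * f ξ := by
  set Φ : (Fin p → ℂ) →ₗ[ℂ] V := Fintype.linearCombination ℂ ξ with hΦ
  have h1 := top_comp (f.compLinearMap Φ) Aᵀ
  simp only [AlternatingMap.compLinearMap_apply] at h1
  have e1 : (fun i => Φ (Aᵀ *ᵥ (Pi.single i 1))) = fun i => ∑ j, A i j • ξ j := by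
    funext i
    rw [hΦ, Fintype.linearCombination_apply]
    refine Finset.sum_congr rfl fun j _ => ?_
    rw [Matrix.mulVec_single_one, Matrix.col_apply, Matrix.transpose_apply]
  have e2 : (fun j => Φ (Pi.single j (1 : ℂ))) = ξ := by
    funext j
    rw [hΦ, Fintype.linearCombination_apply_single, one_smul]
  rw [Matrix.det_transpose] at h1
  have h2 : f (fun i => Φ (Aᵀ *ᵥ (Pi.single i 1))) = A.det * f (fun j => Φ (Pi.single j (1 : ℂ))) :=
    h1
  rw [e1, e2] at h2
  exact h2

section
variable {n p k : ℕ} {X : Type} [TopologicalSpace X] [ChartedSpace (Cm n) X]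
  {L : LineBundle n X}

/-- an index of the covering -/
def ixL (L : LineBundle n X) (x : X) : L.ι := Classical.choose (L.cover x)

theorem ixL_mem (L : LineBundle n X) (x : X) : x ∈ L.U (ixL L x) := Classical.choose_spec (L.cover x)

/-- the target space -/
abbrev EU (p : ℕ) : Type := EuclideanSpace ℂ (Fin (p + 1))

/-- vectors of the target space -/
def vec' (u : Fin (p + 1) → ℂ) : EU p := (EuclideanSpace.equiv (Fin (p + 1)) ℂ).symm u

theorem vec'_apply (u : Fin (p + 1) → ℂ) (j : Fin (p + 1)) : vec' u j = u j := rfl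

theorem vec'_smul (c : ℂ) (u : Fin (p + 1) → ℂ) : vec' (c • u) = c • vec' u :=
  map_smul (EuclideanSpace.equiv (Fin (p + 1)) ℂ).symm c u

theorem vec'_an {E : Type*} [NormedAddCommGroup E] [NormedSpace ℂ E] {f : E → Fin (p + 1) → ℂ}
    {x : E} (h : AnalyticAt ℂ f x) : AnalyticAt ℂ (fun y => vec' (f y)) x :=
  ((EuclideanSpace.equiv (Fin (p + 1)) ℂ).symm.toContinuousLinearMap.analyticAt _).comp h

/-- the form `(s_j φ^k)_j` -/
def vS (s : Fin (p + 1) → Sec L k) (φ : Mor L p) (y : X) (e : Chart n X) (ξ : Fin p → Cm n) :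
    EU p :=
  vec' fun j => (s j).f (ixL L y) y * (φ.form (ixL L y) e (e y) ξ) ^ k

theorem vS_eq (s : Fin (p + 1) → Sec L k) (φ : Mor L p) {y : X} {e : Chart n X} (he : At e y)
    {i : L.ι} (hi : y ∈ L.U i) (ξ : Fin p → Cm n) :
    vS s φ y e ξ = vec' fun j => (s j).f i y * (φ.form i e (e y) ξ) ^ k := by
  unfold vS
  congr 1
  funext j
  have h0 := ixL_mem L y
  rw [(s j).change _ _ y h0 hi, φ.glue _ _ e y he h0 hi, AlternatingMap.smul_apply, smul_eq_mul,
    mul_pow]
  ring

theorem form_an (φ : Mor L p) {i : L.ι} {e : Chart n X} {y : X} (he : At e y) (hi : y ∈ L.U i)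
    (ξ : Fin p → Cm n) :
    AnalyticAt ℂ (fun x : Cm n × (Fin p → Cm n) => φ.form i e x.1 x.2) (e y, ξ) := by
  have h1 : (fun x : Cm n × (Fin p → Cm n) => φ.form i e x.1 x.2) = fun x =>
      ∑ r : Fin p → Fin n, (∏ a, x.2 a (r a)) * φ.form i e x.1 (fun a => Pi.single (r a) 1) := by
    funext x
    exact alt_expand _ _
  rw [h1]
  refine Finset.analyticAt_fun_sum _ fun r _ => AnalyticAt.mul ?_ ?_
  · refine Finset.analyticAt_fun_prod _ fun a _ => ?_
    have h2 : AnalyticAt ℂ (fun x : Cm n × (Fin p → Cm n) => x.2) (e y, ξ) := analyticAt_snd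
    have h3 : AnalyticAt ℂ (fun x : Cm n × (Fin p → Cm n) => x.2 a) (e y, ξ) :=
      analyticAt_pi_iff.1 h2 a
    exact analyticAt_pi_iff.1 h3 (r a)
  · have h2 : AnalyticAt ℂ (fun z => φ.form i e z fun a => Pi.single (r a) 1) (e y) :=
      (φ.holo i e y he hi _).analyticAt
    exact AnalyticAt.comp (g := fun z => φ.form i e z fun a => Pi.single (r a) 1)
      (f := fun x : Cm n × (Fin p → Cm n) => x.1) (x := (e y, ξ)) h2 analyticAt_fst

theorem vS_hform [IsManifold 𝓘(ℂ, Cm n) ω X] (s : Fin (p + 1) → Sec L k) (φ : Mor L p) :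
    HForm n p k (id : X → X) (EU p) (vS s φ) where
  hol := by
    intro y e he
    change At e y at he
    obtain ⟨i, hi⟩ := L.cover y
    refine ⟨fun x => vec' fun j => (s j).f i (e.symm x.1) * (φ.form i e x.1 x.2) ^ k,
      fun ξ => vec'_an (analyticAt_pi_iff.2 fun j => ?_), ?_⟩
    · have h1 : AnalyticAt ℂ (fun z => (s j).f i (e.symm z)) (e y) :=
        ((s j).holo i e y he hi).analyticAt
      exact (AnalyticAt.comp (g := fun z => (s j).f i (e.symm z))
        (f := fun x : Cm n × (Fin p → Cm n) => x.1) (x := (e y, ξ)) h1 analyticAt_fst).mul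
        ((form_an φ he hi ξ).pow k)
    · filter_upwards [(L.isOpen i).mem_nhds hi, e.open_source.mem_nhds he.2] with y' h1 h2 ξ
      have he' : At e y' := ⟨he.1, h2⟩
      rw [vS_eq s φ he' h1 ξ]
      simp only [id_eq, he'.left_inv]
  change := by
    intro y e e' he he' ξ
    change At e y at he
    change At e' y at he'
    obtain ⟨i, hi⟩ := L.cover y
    rw [vS_eq s φ he hi, vS_eq s φ he' hi, φ.change i e e' y he he' hi]
    rfl
  det := by
    intro y e he A ξ
    change At e y at he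
    obtain ⟨i, hi⟩ := L.cover y
    rw [vS_eq s φ he hi, vS_eq s φ he hi, ← vec'_smul]
    congr 1
    funext j
    rw [alt_comb, mul_pow, Pi.smul_apply, smul_eq_mul]
    ring
  inv := by
    intro y y₁ e _ h ξ
    change y = y₁ at h
    rw [h]

/-- a projectively immersive map -/
theorem immAt_cons {h : Cm p → ℂ} {b : Cm p} (hh : AnalyticAt ℂ h b) (h0 : h b ≠ 0) :
    ImmAt (fun β : Cm p => (vec' (h β • (Fin.cons 1 β : Fin (p + 1) → ℂ)) : EU p)) b := by
  set γ : Cm p → EU p := fun β => vec' (h β • (Fin.cons 1 β : Fin (p + 1) → ℂ)) with hγ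
  have hcons : AnalyticAt ℂ (fun β : Cm p => (Fin.cons 1 β : Fin (p + 1) → ℂ)) b := by
    refine analyticAt_pi_iff.2 fun j => ?_
    refine Fin.cases ?_ (fun a => ?_) j
    · exact analyticAt_const
    · exact (ContinuousLinearMap.proj (R := ℂ) (φ := fun _ : Fin p => ℂ) a).analyticAt b
  have hγan : AnalyticAt ℂ γ b := vec'_an (hh.smul hcons)
  refine ⟨fun h1 => ?_, fun η c hη => ?_⟩
  · have h2 := congrArg (fun u : EU p => u 0) h1
    simp only [hγ, vec'_apply, Pi.smul_apply, Fin.cons_zero, smul_eq_mul, mul_one,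
      PiLp.zero_apply] at h2
    exact h0 h2
  -- the components
  have hcomp : ∀ j : Fin (p + 1), fderiv ℂ γ b η j = fderiv ℂ (fun β => γ β j) b η := by
    intro j
    have h1 := ((EuclideanSpace.proj j : EU p →L[ℂ] ℂ).hasFDerivAt.comp b
      hγan.differentiableAt.hasFDerivAt).fderiv
    have h2 : (EuclideanSpace.proj j : EU p →L[ℂ] ℂ) ∘ γ = fun β => γ β j := rfl
    rw [h2] at h1
    rw [h1]
    rfl
  have hd := hh.differentiableAt.hasFDerivAt
  have e0 : (fun β => γ β 0) = h := by
    funext β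
    simp [hγ, vec'_apply]
  have h3 : fderiv ℂ h b η = c * h b := by
    have h4 := congrArg (fun u : EU p => u 0) hη
    simp only at h4
    rw [hcomp, e0, PiLp.smul_apply, smul_eq_mul] at h4
    rw [h4]
    congr 1
    exact congrFun e0 b
  funext a
  have e1 : (fun β => γ β a.succ) = fun β => h β * β a := by
    funext β
    simp [hγ, vec'_apply]
  have h4 := congrArg (fun u : EU p => u a.succ) hη
  simp only at h4
  rw [hcomp, e1, PiLp.smul_apply, smul_eq_mul, congrFun e1 b] at h4
  have h5 : HasFDerivAt (fun β : Cm p => β a)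
      (ContinuousLinearMap.proj (R := ℂ) (φ := fun _ : Fin p => ℂ) a) b :=
    (ContinuousLinearMap.proj (R := ℂ) (φ := fun _ : Fin p => ℂ) a).hasFDerivAt
  have h6 := (hd.mul h5).fderiv
  have h7 : (fun β : Cm p => h β * β a) = h * fun β : Cm p => β a := rfl
  rw [h7, h6] at h4
  simp only [add_apply, smul_apply,
    ContinuousLinearMap.proj_apply, smul_eq_mul, h3] at h4
  have h8 : h b * η a = 0 := by linear_combination h4
  exact (mul_eq_zero.1 h8).resolve_left h0

end

end Vale.Agent.P284.H553.R6
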