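import Vale.Agent.P284.H553.PT.Chi

/-!
# P284 (helper553), R6: a function whose derivative vanishes on the kernel of `dt` is a function of `t`
-/

open scoped ContDiff Topology
open Filter Set Metric

noncomputable section

namespace Vale.Agent.P284.H553.R6

open Vale.Agent.P272.K Vale.Agent.P284.H837 Vale.Agent.P284.H553.PT

theorem factor {n q : ℕ} {t : Cm n → Cm q} {g : Cm n → ℂ} {z₁ : Cm n} (ht : AnalyticAt ℂ t z₁)
    (hs : Function.Surjective (fderiv ℂ t z₁)) (hg : AnalyticAt ℂ g z₁)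
    (hk : ∀ᶠ z in 𝓝 z₁, ∀ v, fderiv ℂ t z v = 0 → fderiv ℂ g z v = 0) :
    ∃ h : Cm q → ℂ, AnalyticAt ℂ h (t z₁) ∧ ∀ᶠ z in 𝓝 z₁, g z = h (t z) := by
  obtain ⟨T, χ, hχ⟩ := exists_chi ht hs
  set A : Cm n →L[ℂ] Cm q := fderiv ℂ t z₁ with hA
  obtain ⟨S₀, hS₀⟩ := LinearMap.exists_rightInverse_of_surjective (A : Cm n →ₗ[ℂ] Cm q)
    (LinearMap.range_eq_top.2 hs)
  set S : Cm q →L[ℂ] Cm n := LinearMap.toContinuousLinearMap S₀ with hS
  have hAS : ∀ u, A (S u) = u := fun u => LinearMap.congr_fun hS₀ u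
  -- `g ∘ χ` is constant along the kernel of `A`
  have hd : ∀ᶠ x in 𝓝 (0 : Cm n), DifferentiableAt ℂ (fun x => g (χ x)) x ∧ ∀ v, A v = 0 →
      fderiv ℂ (fun x => g (χ x)) x v = 0 := by
    filter_upwards [hχ.tχ.eventually hk, hχ.dt ht, hχ.tχ.eventually hg.eventually_analyticAt,
      hχ.χan.eventually_analyticAt] with x a1 a2 a3 a4
    have h1 : HasFDerivAt (fun x => g (χ x)) ((fderiv ℂ g (χ x)).comp (fderiv ℂ χ x)) x :=
      a3.differentiableAt.hasFDerivAt.comp x a4.differentiableAt.hasFDerivAt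
    refine ⟨h1.differentiableAt, fun v hv => ?_⟩
    rw [h1.fderiv]
    exact a1 (fderiv ℂ χ x v) (by rw [a2]; exact hv)
  obtain ⟨r, hr, hball⟩ := Metric.eventually_nhds_iff_ball.1 hd
  have hconst : ∀ x ∈ ball (0 : Cm n) r, ∀ y ∈ ball (0 : Cm n) r, A x = A y →
      g (χ x) = g (χ y) := by
    intro x hx y hy hxy
    set G : Cm n → ℂ := fun x => g (χ x) with hG
    have hline : ∀ s ∈ Icc (0 : ℝ) 1, HasDerivWithinAt (fun s : ℝ => G (x + s • (y - x)))
        0 (Icc 0 1) s := by
      intro s hs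
      have hmem : x + s • (y - x) ∈ ball (0 : Cm n) r := by
        have := (convex_ball (0 : Cm n) r) hx hy (a := 1 - s) (b := s) (by linarith [hs.2])
          hs.1 (by ring)
        have e : (1 - s) • x + s • y = x + s • (y - x) := by
          rw [sub_smul, one_smul, smul_sub]; abel
        rwa [e] at this
      obtain ⟨b1, b2⟩ := hball _ hmem
      have h1 : HasDerivAt (fun s : ℝ => x + s • (y - x)) (y - x) s := by
        simpa using ((hasDerivAt_id s).smul_const (y - x)).const_add x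
      have h2 := ((b1.hasFDerivAt.restrictScalars ℝ).comp_hasDerivAt s h1)
      have h3 : (ContinuousLinearMap.restrictScalars ℝ (fderiv ℂ G (x + s • (y - x)))) (y - x) = 0 :=
        b2 _ (by rw [map_sub, hxy, sub_self])
      rw [h3] at h2
      exact h2.hasDerivWithinAt
    have h4 := (convex_Icc (0 : ℝ) 1).is_const_of_fderivWithin_eq_zero (𝕜 := ℝ)
      (f := fun s : ℝ => G (x + s • (y - x)))
      (fun s hs => (hline s hs).differentiableWithinAt)
      (fun s hs => by
        have hu : UniqueDiffWithinAt ℝ (Icc (0 : ℝ) 1) s :=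
          (uniqueDiffOn_Icc zero_lt_one) s hs
        have := (hline s hs).hasFDerivWithinAt.fderivWithin hu
        rw [this]
        ext
        simp)
      (left_mem_Icc.2 zero_le_one) (right_mem_Icc.2 zero_le_one)
    simpa [hG] using h4
  refine ⟨fun s => g (χ (S (s - t z₁))), ?_, ?_⟩
  · have h1 : AnalyticAt ℂ (fun s : Cm q => S (s - t z₁)) (t z₁) :=
      (S.analyticAt _).comp (analyticAt_id.sub analyticAt_const)
    have h2 : AnalyticAt ℂ (fun s : Cm q => χ (S (s - t z₁))) (t z₁) := by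
      refine AnalyticAt.comp (g := χ) ?_ h1
      simp only [sub_self, map_zero]
      exact hχ.χan
    refine AnalyticAt.comp (g := g) ?_ h2
    simp only [sub_self, map_zero, hχ.χ0]
    exact hg
  · have h3 : Tendsto (fun z => S (t z - t z₁)) (𝓝 z₁) (𝓝 0) := by
      have h4 : ContinuousAt (fun z => S (t z - t z₁)) z₁ :=
        S.continuous.continuousAt.comp (ht.continuousAt.sub continuousAt_const)
      have := h4.tendsto
      simpa using this
    filter_upwards [hχ.χT, hχ.tT.eventually (ball_mem_nhds 0 hr),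
      h3.eventually (ball_mem_nhds 0 hr)] with z a1 a2 a3
    rw [← hconst _ a2 _ a3 (by rw [hχ.eq z, hAS]), a1]

end Vale.Agent.P284.H553.R6
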